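import Vale.Agent.P050.V3.Spec
import Vale.Agent.P050.H869.GV
import Vale.Agent.P050.H546.GWalk

/-!
P050, arbitrary deleted rungs: a step of length `l` (helper660).
-/

set_option linter.unusedSectionVars false

namespace Vale.Agent.P050.V3.H660

open Finset Vale.Agent.P050.H148 Vale.Agent.P050.Cart Vale.Agent.P050.Join Vale.Agent.P050.M18
open Vale.Agent.P050.H546 Vale.Agent.P050.V3

variable {U : Type} [Fintype U] [DecidableEq U] {Q : U × U → ℝ}

/-- the end `g` of a walk of length `k` from the second vertex -/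
noncomputable def W1 (Q : U × U → ℝ) (k : ℕ) (F : (U × U) × (U × U) → ℝ) :
    ((U × U) × (U × U)) × U → ℝ := att F (fun x => x.2.2) (zp (nb Q) k)

/-- a neighbour `f'` of `g` -/
noncomputable def W2 (Q : U × U → ℝ) (k : ℕ) (F : (U × U) × (U × U) → ℝ) :
    (((U × U) × (U × U)) × U) × U → ℝ := att (W1 Q k F) (fun x => x.2) (nb Q)

/-- a copy `s'` of `g` given `(s, f')` -/
noncomputable def W3 (Q : U × U → ℝ) (k : ℕ) (F : (U × U) × (U × U) → ℝ) :
    ((((U × U) × (U × U)) × U) × U) × U → ℝ :=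
  cop (W2 Q k F) (fun x => (x.1.1.2.1, x.2)) (fun x => x.1.2)

theorem mar_supp {Ω α : Type} [Fintype Ω] {P : Ω → ℝ} {f : Ω → α} {a : α} (h : mar P f a ≠ 0) :
    ∃ ω, P ω ≠ 0 ∧ f ω = a := by
  classical
  unfold mar at h
  obtain ⟨ω, -, hω⟩ := Finset.exists_ne_zero_of_sum_ne_zero h
  by_cases h5 : f ω = a
  · rw [if_pos h5] at hω
    exact ⟨ω, hω, h5⟩
  · rw [if_neg h5] at hω
    exact absurd rfl hω

theorem mar_comp {Ω Ω' α β : Type} [Fintype Ω] [Fintype Ω'] [Fintype α] [Fintype β] {P : Ω → ℝ}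
    {P' : Ω' → ℝ} {f : Ω → α} {f' : Ω' → α} (h : mar P f = mar P' f') (g : α → β) :
    mar P (fun ω => g (f ω)) = mar P' (fun ω => g (f' ω)) := by
  funext b
  rw [← mar_mar P f g, ← mar_mar P' f' g, h]

section

variable {F : (U × U) × (U × U) → ℝ} (hE : Edge Q) (hl : Lab Q F) (k : ℕ)
include hE hl

theorem o1 (x) (hx : F x ≠ 0) : ∑ z, zp (nb Q) k x.2.2 z = 1 :=
  kp_one hE k (hE.mm_ne (x := x.2.1) (y := x.2.2) (hl.ne_zero hE hx)).2

theorem W1_nn (x) : 0 ≤ W1 Q k F x := att_nonneg hl.nn (kp_nn hE k) x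

/-- the law of `(s, f, g)` -/
theorem W1_law : mar (W1 Q k F) (fun x => (x.1.2, x.2)) = FF Q k := by
  funext ⟨e, z⟩
  have h := mar_att (P := F) (f := fun x => x.2.2) (K := zp (nb Q) k) (fun x => x.2)
    (fun e => e.2) (fun _ => rfl) e z
  unfold W1
  rw [h, hl.snd]
  rfl

theorem W1_sg : mar (W1 Q k F) (fun x => (x.1.2.1, x.2)) = EE Q (k + 1) := by
  have h := mar_comp (W1_law hE hl k |>.trans (funext fun a => (mar_id (FF Q k) a).symm))
    (fun x : (U × U) × U => (x.1.1, x.2))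
  rw [FF_0z hE k] at h
  exact h

theorem W1_fg : mar (W1 Q k F) (fun x => (x.1.2.2, x.2)) = EE Q k := by
  have h := mar_comp (W1_law hE hl k |>.trans (funext fun a => (mar_id (FF Q k) a).symm))
    (fun x : (U × U) × U => (x.1.2, x.2))
  rw [FF_1z hE k] at h
  exact h

theorem W1_g : mar (W1 Q k F) (fun x => x.2) = mm Q := by
  have h := mar_comp (W1_fg hE hl k |>.trans (funext fun a => (mar_id (EE Q k) a).symm))
    (fun x : U × U => x.2)
  rw [H869.mar_EE_snd hE k] at h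
  exact h

theorem o2 (x) (hx : W1 Q k F x ≠ 0) : ∑ z, nb Q x.2 z = 1 := by
  refine hE.nb_one ?_
  rw [← W1_g hE hl k]
  exact mar_ne_zero (W1_nn hE hl k) (fun x => x.2) hx

theorem W1_tot : ∑ x, W1 Q k F x = 1 := att_total (hl.tot hE) (o1 hE hl k)

theorem W2_nn (x) : 0 ≤ W2 Q k F x := att_nonneg (W1_nn hE hl k) hE.nb_nn x

theorem W2_tot : ∑ x, W2 Q k F x = 1 := att_total (W1_tot hE hl k) (o2 hE hl k)

/-- the law of `(s, g, f')` -/
theorem W2_law : mar (W2 Q k F) (fun x => ((x.1.1.2.1, x.1.2), x.2)) = H869.PJ Q (k + 1) := by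
  funext ⟨e, z⟩
  have h := mar_att (P := W1 Q k F) (f := fun x => x.2) (K := nb Q) (fun x => (x.1.2.1, x.2))
    (fun e => e.2) (fun _ => rfl) e z
  unfold W2
  rw [h, W1_sg hE hl k]
  rfl

/-- the law of `(f, g, f')` -/
theorem W2_law' : mar (W2 Q k F) (fun x => ((x.1.1.2.2, x.1.2), x.2)) = H869.PJ Q k := by
  funext ⟨e, z⟩
  have h := mar_att (P := W1 Q k F) (f := fun x => x.2) (K := nb Q) (fun x => (x.1.2.2, x.2))
    (fun e => e.2) (fun _ => rfl) e z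
  unfold W2
  rw [h, W1_fg hE hl k]
  rfl

/-- `(s, f')` -/
theorem W2_sf : mar (W2 Q k F) (fun x => (x.1.1.2.1, x.2)) = EE Q (k + 2) := by
  have h := mar_comp (W2_law hE hl k |>.trans
    (funext fun a => (mar_id (H869.PJ Q (k + 1)) a).symm))
    (fun x : (U × U) × U => (x.1.1, x.2))
  rw [funext (H869.PJ_law (k + 1))] at h
  exact h

/-- `(f, f')` -/
theorem W2_ff : mar (W2 Q k F) (fun x => (x.1.1.2.2, x.2)) = EE Q (k + 1) := by
  have h := mar_comp (W2_law' hE hl k |>.trans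
    (funext fun a => (mar_id (H869.PJ Q k) a).symm))
    (fun x : (U × U) × U => (x.1.1, x.2))
  rw [funext (H869.PJ_law k)] at h
  exact h

/-- `(g, f')` -/
theorem W2_gf : mar (W2 Q k F) (fun x => (x.1.2, x.2)) = Q := by
  funext ⟨y, z⟩
  have h := mar_att (P := W1 Q k F) (f := fun x => x.2) (K := nb Q) (fun x => x.2)
    (fun y => y) (fun _ => rfl) y z
  unfold W2
  rw [h, W1_g hE hl k]
  exact hE.mm_mul_nb y z

/-- `(R, (s, f), f')` -/
theorem W2_all : mar (W2 Q k F) (fun x => (x.1.1, x.2)) =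
    att F (fun x => x.2.2) (zp (nb Q) (k + 1)) := by
  funext ⟨a, z⟩
  have h := att_mar2 (W1 Q k F) (fun x => x.2) (nb Q) (fun x => x.1) a z
  unfold W2
  rw [h]
  have h2 : ∀ d, mar (W1 Q k F) (fun ω => (ω.1, ω.2)) (a, d) = W1 Q k F (a, d) := fun d =>
    mar_id (W1 Q k F) (a, d)
  simp_rw [h2]
  show ∑ d, F a * zp (nb Q) k a.2.2 d * nb Q d z =
    F a * ∑ c, zp (nb Q) k a.2.2 c * nb Q c z
  rw [Finset.mul_sum]
  exact Finset.sum_congr rfl fun d _ => by ring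

theorem W2_ent_all : ent (W2 Q k F) (fun x => (x.1.1, x.2)) =
    ent F (fun x => x) + (hh Q (k + 1) - aQ Q) := by
  have h1 := ent_att (P := F) (f := fun x => x.2.2) (K := zp (nb Q) (k + 1)) hl.nn
    (kp_nn hE (k + 1)) (o1 hE hl (k + 1)) (fun x => x) (fun x => x.2.2) (fun _ => rfl)
  have h2 : ent (W2 Q k F) (fun x => (x.1.1, x.2)) =
      ent (att F (fun x => x.2.2) (zp (nb Q) (k + 1))) (fun x => (x.1, x.2)) := by
    refine ent_law fun a => ?_
    rw [W2_all hE hl k]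
    exact (mar_id _ a).symm
  have h3 : ent F (fun x => x.2.2) = aQ Q := by
    rw [← hE.ent_snd]
    exact hl.ent_edge hE fun e => e.2
  have h4 : ent (att F (fun x => x.2.2) (zp (nb Q) (k + 1))) (fun x => (x.1.2.2, x.2)) =
      hh Q (k + 1) := by
    unfold hh
    refine ent_law fun a => ?_
    obtain ⟨y, z⟩ := a
    have h5 := mar_att (P := F) (f := fun x => x.2.2) (K := zp (nb Q) (k + 1))
      (fun x => x.2.2) (fun y => y) (fun _ => rfl) y z
    have h6 : mar F (fun x => x.2.2) = mm Q := by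
      rw [← hE.mar_snd_Q]
      exact hl.mar_edge hE fun e => e.2
    rw [h5, h6, mar_id]
    rfl
  rw [h4, h3] at h1
  rw [h2]
  linarith

theorem W2_ent_sgf : ent (W2 Q k F) (fun x => ((x.1.1.2.1, x.2), x.1.2)) =
    hh Q (k + 1) + (hQ Q - aQ Q) := by
  have h1 := H869.PJ_ent hE (k + 1)
  have h2 : ent (W2 Q k F) (fun x => ((x.1.1.2.1, x.2), x.1.2)) =
      ent (W2 Q k F) (fun x => ((x.1.1.2.1, x.1.2), x.2)) :=
    ent_same _ fun x y => by
      simp only [Prod.ext_iff]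
      tauto
  have h3 : ent (W2 Q k F) (fun x => ((x.1.1.2.1, x.1.2), x.2)) =
      ent (H869.PJ Q (k + 1)) (fun ω => (ω.1.1, ω.1.2, ω.2)) := by
    have h4 : ent (H869.PJ Q (k + 1)) (fun ω => (ω.1.1, ω.1.2, ω.2)) =
        ent (H869.PJ Q (k + 1)) (fun ω => ω) := ent_same _ fun x y => by
      simp only [Prod.ext_iff]
      tauto
    rw [h4]
    refine ent_law fun a => ?_
    rw [W2_law hE hl k]
    exact (mar_id _ a).symm
  have h5 : ent (H869.PJ Q (k + 1)) (fun ω => (ω.1.1, ω.1.2)) = hh Q (k + 1) :=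
    ent_att_fst (H869.PJ_one hE (k + 1)) (fun x => x)
  rw [h2, h3]
  linarith

theorem W2_ent_sf : ent (W2 Q k F) (fun x => (x.1.1.2.1, x.2)) = hh Q (k + 2) := by
  unfold hh
  refine ent_law fun a => ?_
  rw [W2_sf hE hl k]
  exact (mar_id _ a).symm

theorem W3_nn' (x) : 0 ≤ W3 Q k F x := cop_nonneg (W2_nn hE hl k) _ _ x

theorem W3_tot' : ∑ x, W3 Q k F x = 1 := cop_total (W2_nn hE hl k) _ _ (W2_tot hE hl k)

/-- the law of `((s, f'), s')` -/
theorem W3_law : mar (W3 Q k F) (fun x => ((x.1.1.1.2.1, x.1.2), x.2)) =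
    mar (W2 Q k F) (fun x => ((x.1.1.2.1, x.2), x.1.2)) :=
  cop_law (W2_nn hE hl k) (fun x => (x.1.1.2.1, x.2)) (fun x => x.1.2)

/-- `(s, s')` -/
theorem W3_ss : mar (W3 Q k F) (fun x => (x.1.1.1.2.1, x.2)) = EE Q (k + 1) := by
  have h := mar_comp (W3_law hE hl k) (fun x : (U × U) × U => (x.1.1, x.2))
  have h2 : mar (W2 Q k F) (fun x => (x.1.1.2.1, x.1.2)) =
      mar (W1 Q k F) (fun x => (x.1.2.1, x.2)) :=
    mar_att_fst (o2 hE hl k) (fun x => (x.1.2.1, x.2))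
  rw [← W1_sg hE hl k, ← h2]
  exact h

/-- `(s', f')` -/
theorem W3_edge : mar (W3 Q k F) (fun x => (x.2, x.1.2)) = Q := by
  have h := mar_comp (W3_law hE hl k) (fun x : (U × U) × U => (x.2, x.1.2))
  exact h.trans (W2_gf hE hl k)

/-- `(f, f')` -/
theorem W3_ff : mar (W3 Q k F) (fun x => (x.1.1.1.2.2, x.1.2)) = EE Q (k + 1) := by
  rw [← W2_ff hE hl k]
  exact cop_fst (W2_nn hE hl k) (fun x => (x.1.1.2.1, x.2)) (fun x => x.1.2)
    (fun x => (x.1.1.2.2, x.2))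

theorem W3_ent_all : ent (W3 Q k F) (fun x => (x.1.1.1.1, x.1.1.1.2, (x.2, x.1.2))) =
    ent F (fun x => x) + (hh Q (k + 1) - aQ Q) + (hh Q (k + 1) + (hQ Q - aQ Q) -
      hh Q (k + 2)) := by
  have h1 := cop_ent (W2_nn hE hl k) (fun x => (x.1.1.2.1, x.2)) (fun x => x.1.2)
    (fun x => (x.1.1, x.2)) (fun x => (x.1.2.1, x.2)) (fun _ => rfl)
  rw [W2_ent_all hE hl k, W2_ent_sgf hE hl k, W2_ent_sf hE hl k] at h1
  rw [← h1]
  exact ent_same _ fun x y => by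
    simp only [Prod.ext_iff]
    tauto

theorem W3_ne {ω} (hω : W3 Q k F ω ≠ 0) : F ω.1.1.1 ≠ 0 := by
  have h1 : W2 Q k F ω.1 ≠ 0 := left_ne_zero_of_mul hω
  have h2 : W1 Q k F ω.1.1 ≠ 0 := left_ne_zero_of_mul h1
  exact left_ne_zero_of_mul h2

theorem W3_F : mar (W3 Q k F) (fun x => x.1.1.1) = F := by
  have h7 := cop_fst (W2_nn hE hl k) (fun x => (x.1.1.2.1, x.2)) (fun x => x.1.2)
    (fun x => x.1.1)
  have h8 := mar_att_fst (P := W1 Q k F) (f := fun x => x.2) (K := nb Q) (o2 hE hl k)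
    (fun x => x.1)
  have h9 := mar_att_fst (P := F) (f := fun x => x.2.2) (K := zp (nb Q) k) (o1 hE hl k)
    (fun x => x)
  exact (h7.trans (h8.trans h9)).trans (funext fun a => mar_id F a)

theorem W3_Rf : mar (W3 Q k F) (fun x => (x.1.1.1.1, x.1.2)) =
    mar (att F (fun x => x.2.2) (zp (nb Q) (k + 1))) (fun x => (x.1.1, x.2)) := by
  have h2 : mar (W3 Q k F) (fun x => (x.1.1.1.1, x.1.2)) =
      mar (W2 Q k F) (fun x => (x.1.1.1, x.2)) :=
    cop_fst (W2_nn hE hl k) (fun x => (x.1.1.2.1, x.2)) (fun x => x.1.2)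
      (fun x => (x.1.1.1, x.2))
  have h4 := mar_comp (W2_all hE hl k |>.trans (funext fun a => (mar_id _ a).symm))
    (fun x : ((U × U) × (U × U)) × U => (x.1.1, x.2))
  exact h2.trans h4

end

attribute [local irreducible] W3

/-- a mean logarithm -/
theorem mean_log {Ω α : Type} [Fintype Ω] [Fintype α] {P : Ω → ℝ} {T : α → ℝ} {f : Ω → α}
    (h : mar P f = T) (G : α → ℝ) : ∑ ω, P ω * G (f ω) = ∑ a, T a * G a := by
  rw [← h, sum_mar]

/-- **[LONG]** -/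
theorem long : LongStmt := by
  intro U _ _ A Q hE hA0 hA1 n l Z F v hl1 hZ hF
  obtain ⟨k, rfl⟩ : ∃ k, l = k + 1 := ⟨l - 1, by omega⟩
  have hl := hF.lab
  obtain ⟨g1, g2⟩ := H869.gval U A Q hE hA0 hA1 (k + 1)
  have hWF : ∀ ω, W3 Q k F ω ≠ 0 → F ω.1.1.1 ≠ 0 := fun ω hω => W3_ne hE hl k hω
  have hs1 : ∀ ω, W3 Q k F ω ≠ 0 → zp A (k + 1) ω.1.1.1.2.1 ω.2 ≠ 0 := by
    intro ω hω
    refine g1 (ω.1.1.1.2.1, ω.2) ?_
    have h := mar_ne_zero (W3_nn' hE hl k) (fun x => (x.1.1.1.2.1, x.2)) hω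
    rw [W3_ss hE hl k] at h
    exact h
  have hs2 : ∀ ω, W3 Q k F ω ≠ 0 → zp A (k + 1) ω.1.1.1.2.2 ω.1.2 ≠ 0 := by
    intro ω hω
    refine g1 (ω.1.1.1.2.2, ω.1.2) ?_
    have h := mar_ne_zero (W3_nn' hE hl k) (fun x => (x.1.1.1.2.2, x.1.2)) hω
    rw [W3_ff hE hl k] at h
    exact h
  have hs3 : ∀ ω, W3 Q k F ω ≠ 0 → A ω.2 ω.1.2 = 1 := by
    intro ω hω
    refine hA1 _ _ ?_
    have h := mar_ne_zero (W3_nn' hE hl k) (fun x => (x.2, x.1.2)) hω
    rw [W3_edge hE hl k] at h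
    exact h
  have hs4 : ∀ ω, W3 Q k F ω ≠ 0 → Z ω.1.1.1.1 ω.1.1.1.2 ≠ 0 := fun ω hω =>
    hF.sup _ (hWF ω hω)
  have key := ent_log_cond (W3_nn' hE hl k) (W3_tot' hE hl k)
    (fun x => (x.1.1.1.1, x.1.1.1.2, (x.2, x.1.2)))
    (fun a : (U × U) × (U × U) × (U × U) => (a.1, a.2.2))
    (fun a => Z a.1 a.2.1 * KL A (k + 1) a.2.1 a.2.2)
    (fun b => ∑ x, Z b.1 x * KL A (k + 1) x b.2)
    (fun a => mul_nonneg (hZ _ _) (mul_nonneg (mul_nonneg (zp_nonneg hA0 _ _ _)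
      (zp_nonneg hA0 _ _ _)) (hA0 _ _)))
    (fun b => by
      obtain ⟨x, z⟩ := b
      rw [mar_prod_13])
    (fun ω h0 => mul_ne_zero (hs4 ω h0) (mul_ne_zero (mul_ne_zero (hs1 ω h0) (hs2 ω h0)) (by
      rw [hs3 ω h0]
      exact one_ne_zero)))
  set F' : (U × U) × (U × U) → ℝ := mar (W3 Q k F) (fun x => (x.1.1.1.1, (x.2, x.1.2))) with hF'
  refine ⟨F', ⟨mar_nonneg (W3_nn' hE hl k) _, ?_⟩, ?_, ?_, ?_⟩
  · have h := mar_comp (P := F') (P' := W3 Q k F) (f := fun x => x)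
      (f' := fun x => (x.1.1.1.1, (x.2, x.1.2))) (by
        funext a
        rw [mar_id]) (fun y => y.2)
    rw [h]
    exact W3_edge hE hl k
  · funext ⟨R, z⟩
    have h1 : mar F' (fun x => (x.1, x.2.2)) (R, z) =
        mar (W3 Q k F) (fun x => (x.1.1.1.1, x.1.2)) (R, z) := by
      rw [hF', mar_mar]
    rw [h1, W3_Rf hE hl k, att_mar2 F (fun x => x.2.2) (zp (nb Q) (k + 1)) (fun x => x.1) R z,
      PPL hE n (k + 1) R z]
    refine Finset.sum_congr rfl fun d _ => ?_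
    rw [hF.low]
  · intro x hx
    rw [hF'] at hx
    obtain ⟨ω, h1, h2⟩ := mar_supp hx
    rw [← h2]
    exact key.1 ω h1
  · have h1 := key.2
    have h2 : ent (W3 Q k F) (fun x => (x.1.1.1.1, (x.2, x.1.2))) = ent F' (fun x => x) := by
      rw [hF', ent_mar]
    have h3 : ∑ ω, W3 Q k F ω * Real.log (∑ x, Z ω.1.1.1.1 x * KL A (k + 1) x (ω.2, ω.1.2)) =
        ∑ x, F' x * Real.log (∑ y, Z x.1 y * KL A (k + 1) y x.2) :=
      mean_log (P := W3 Q k F) (T := F') (f := fun x => (x.1.1.1.1, (x.2, x.1.2))) hF'.symm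
        (fun x => Real.log (∑ y, Z x.1 y * KL A (k + 1) y x.2))
    have h4 : ∀ ω, W3 Q k F ω * Real.log (Z ω.1.1.1.1 ω.1.1.1.2 *
        KL A (k + 1) ω.1.1.1.2 (ω.2, ω.1.2)) =
        W3 Q k F ω * Real.log (Z ω.1.1.1.1 ω.1.1.1.2) +
        W3 Q k F ω * Real.log (zp A (k + 1) ω.1.1.1.2.1 ω.2) +
        W3 Q k F ω * Real.log (zp A (k + 1) ω.1.1.1.2.2 ω.1.2) := by
      intro ω
      by_cases h0 : W3 Q k F ω = 0
      · rw [h0]; ring
      · unfold KL
        simp only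
        rw [hs3 ω h0, mul_one, Real.log_mul (hs4 ω h0) (mul_ne_zero (hs1 ω h0) (hs2 ω h0)),
          Real.log_mul (hs1 ω h0) (hs2 ω h0)]
        ring
    have h5 : ∑ ω, W3 Q k F ω * Real.log (Z ω.1.1.1.1 ω.1.1.1.2) =
        ∑ x, F x * Real.log (Z x.1 x.2) :=
      mean_log (P := W3 Q k F) (T := F) (f := fun x => x.1.1.1) (W3_F hE hl k)
        (fun x => Real.log (Z x.1 x.2))
    have h6 : ∑ ω, W3 Q k F ω * Real.log (zp A (k + 1) ω.1.1.1.2.1 ω.2) =
        ∑ x, EE Q (k + 1) x * Real.log (zp A (k + 1) x.1 x.2) :=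
      mean_log (P := W3 Q k F) (T := EE Q (k + 1)) (f := fun x => (x.1.1.1.2.1, x.2))
        (W3_ss hE hl k) (fun x => Real.log (zp A (k + 1) x.1 x.2))
    have h7 : ∑ ω, W3 Q k F ω * Real.log (zp A (k + 1) ω.1.1.1.2.2 ω.1.2) =
        ∑ x, EE Q (k + 1) x * Real.log (zp A (k + 1) x.1 x.2) :=
      mean_log (P := W3 Q k F) (T := EE Q (k + 1)) (f := fun x => (x.1.1.1.2.2, x.1.2))
        (W3_ff hE hl k) (fun x => Real.log (zp A (k + 1) x.1 x.2))
    simp only at h1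
    rw [Finset.sum_congr rfl fun ω _ => h4 ω, Finset.sum_add_distrib, Finset.sum_add_distrib,
      h5, h6, h7, W3_ent_all hE hl k, h2, h3] at h1
    have h8 := hF.va
    push_cast at g2 ⊢
    have e : k + 1 + 1 = k + 2 := rfl
    rw [e]
    linarith

end Vale.Agent.P050.V3.H660
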